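import Vale.Agent.P358.Gen.Step
import Vale.Agent.P358.Gen.Capacity
import Vale.Agent.P358.Gen.Simple

/-!
P358: the classical capacity of every generalized amplitude-damping channel equals its Holevo
capacity, given by a one-parameter formula.
-/

theorem Vale.Agent.Results.P358.GeneralizedAmplitudeDamping.result :
    ∀ γ ν : ℝ, 0 ≤ γ → γ ≤ 1 → 0 ≤ ν → ν ≤ 1 →
      (∀ n : ℕ, IsLUB (Vale.Agent.P358.holevoValues (Vale.Agent.P358.gadc γ ν) n)
        (n * Vale.Agent.P358.Gen.gadFormula γ ν)) ∧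
      (∀ n : ℕ, Vale.Agent.P358.holevoChi (Vale.Agent.P358.gadc γ ν) n
        = n * Vale.Agent.P358.holevoChi (Vale.Agent.P358.gadc γ ν) 1) ∧
      IsLUB (Vale.Agent.P358.perUseValues (Vale.Agent.P358.gadc γ ν))
        (Vale.Agent.P358.Gen.gadFormula γ ν) := fun γ ν h0 h1 h2 h3 => by
  rw [← Vale.Agent.P358.Gen.genFormula_eq h0 h1 h2 h3]
  exact Vale.Agent.P358.Gen.capacity_of_step h0 h1 h2 h3
    (Vale.Agent.P358.Gen.genStep h0 h1 h2 h3)
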